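import Mathlib

/-!
# Row 41, module C4: elementary real-variable facts about a polynomial with positive leading
coefficient (growth, monotonicity, convexity, size of increments)
-/

set_option autoImplicit false

namespace Crest.Agent.N41.Arch

open Polynomial Filter

/-- a polynomial of degree at most `n` is `O(x^n)` on `[1, ∞)` -/
lemma abs_eval_le (Q : ℝ[X]) (n : ℕ) (hn : Q.natDegree ≤ n) :
    ∃ M : ℝ, 1 ≤ M ∧ ∀ x : ℝ, 1 ≤ x → |Q.eval x| ≤ M * x ^ n := by
  refine ⟨1 + ∑ j ∈ Finset.range (n + 1), |Q.coeff j|, ?_, fun x hx => ?_⟩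
  · have : 0 ≤ ∑ j ∈ Finset.range (n + 1), |Q.coeff j| :=
      Finset.sum_nonneg fun _ _ => abs_nonneg _
    linarith
  · have hx0 : 0 ≤ x := by linarith
    rw [eval_eq_sum_range' (Nat.lt_succ_of_le hn)]
    calc |∑ j ∈ Finset.range (n + 1), Q.coeff j * x ^ j|
        ≤ ∑ j ∈ Finset.range (n + 1), |Q.coeff j * x ^ j| := Finset.abs_sum_le_sum_abs _ _
      _ ≤ ∑ j ∈ Finset.range (n + 1), |Q.coeff j| * x ^ n := by
          refine Finset.sum_le_sum fun j hj => ?_
          rw [abs_mul, abs_of_nonneg (pow_nonneg hx0 j)]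
          exact mul_le_mul_of_nonneg_left
            (pow_le_pow_right₀ hx (Nat.lt_succ_iff.mp (Finset.mem_range.mp hj))) (abs_nonneg _)
      _ = (∑ j ∈ Finset.range (n + 1), |Q.coeff j|) * x ^ n := by rw [Finset.sum_mul]
      _ ≤ _ := by
          have : 0 ≤ x ^ n := pow_nonneg hx0 n
          nlinarith

/-- a polynomial with positive leading coefficient is eventually positive -/
lemma eventually_pos (Q : ℝ[X]) (h : 0 < Q.leadingCoeff) :
    ∃ x₀ : ℝ, ∀ x, x₀ ≤ x → 0 < Q.eval x := by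
  rcases Nat.eq_zero_or_pos Q.natDegree with h0 | h0
  · refine ⟨0, fun x _ => ?_⟩
    have hQ := eq_C_of_natDegree_eq_zero h0
    have : Q.leadingCoeff = Q.coeff 0 := by rw [leadingCoeff, h0]
    rw [hQ, eval_C, ← this]
    exact h
  · have ht := tendsto_atTop_of_leadingCoeff_nonneg Q (natDegree_pos_iff_degree_pos.mp h0) h.le
    have := (ht.eventually (eventually_gt_atTop 0))
    rw [eventually_atTop] at this
    obtain ⟨x₀, hx₀⟩ := this
    exact ⟨x₀, fun x hx => hx₀ x hx⟩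

lemma leadingCoeff_derivative_pos (Q : ℝ[X]) (h : 0 < Q.leadingCoeff) (hd : 1 ≤ Q.natDegree) :
    0 < (derivative Q).leadingCoeff := by
  have h1 : (derivative Q).natDegree = Q.natDegree - 1 := natDegree_derivative Q
  rw [leadingCoeff, h1, coeff_derivative]
  have h2 : Q.natDegree - 1 + 1 = Q.natDegree := Nat.sub_add_cancel hd
  rw [h2]
  have : (0 : ℝ) < ((Q.natDegree - 1 : ℕ) : ℝ) + 1 := by positivity
  exact mul_pos h this

/-- mean value theorem for a polynomial -/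
lemma exists_mvt (Q : ℝ[X]) (x d : ℝ) (hd : 0 < d) :
    ∃ ξ : ℝ, x < ξ ∧ ξ < x + d ∧ Q.eval (x + d) - Q.eval x = d * (derivative Q).eval ξ := by
  have hc : ContinuousOn (fun t => Q.eval t) (Set.Icc x (x + d)) := Q.continuous.continuousOn
  obtain ⟨ξ, hξ, h⟩ := exists_hasDerivAt_eq_slope (fun t => Q.eval t)
    (fun t => (derivative Q).eval t) (by linarith : x < x + d) hc (fun t _ => Q.hasDerivAt t)
  refine ⟨ξ, hξ.1, hξ.2, ?_⟩
  rw [h]
  have : x + d - x = d := by ring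
  rw [this]
  field_simp

/-- all real-variable facts needed for the range of the variable -/
lemma package (H : ℝ[X]) (k : ℕ) (hk : H.natDegree = k) (h2 : 2 ≤ k)
    (hl : 1 ≤ H.leadingCoeff) :
    ∃ (n₀ : ℕ) (M : ℝ), 1 ≤ n₀ ∧ 1 ≤ M ∧ H.leadingCoeff ≤ M ∧
      (∀ x : ℝ, (n₀ : ℝ) ≤ x → x ^ k / 2 ≤ H.eval x) ∧
      (∀ x : ℝ, 1 ≤ x → H.eval x ≤ M * x ^ k) ∧
      ∀ x d : ℝ, (n₀ : ℝ) ≤ x → 0 < d → H.eval x < H.eval (x + d) ∧
        H.eval (x + d) - H.eval x ≤ H.eval (x + d + d) - H.eval (x + d) ∧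
        H.eval (x + d) - H.eval x ≤ M * d * (x + d) ^ (k - 1) := by
  have hl0 : 0 < H.leadingCoeff := by linarith
  have hd1 : (derivative H).natDegree = k - 1 := by rw [natDegree_derivative, hk]
  have hl1 := leadingCoeff_derivative_pos H hl0 (by omega)
  have hl2 := leadingCoeff_derivative_pos _ hl1 (by omega)
  obtain ⟨x₁, hx₁⟩ := eventually_pos _ hl1
  obtain ⟨x₂, hx₂⟩ := eventually_pos _ hl2
  -- lower bound
  have hlow : 0 < (H - C (1 / 2 : ℝ) * X ^ k).leadingCoeff := by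
    have hc : (H - C (1 / 2 : ℝ) * X ^ k).coeff k = H.leadingCoeff - 1 / 2 := by
      rw [coeff_sub, coeff_C_mul, coeff_X_pow, if_pos rfl, leadingCoeff, hk, mul_one]
    have hpos : 0 < (H - C (1 / 2 : ℝ) * X ^ k).coeff k := by rw [hc]; linarith
    have hle : (H - C (1 / 2 : ℝ) * X ^ k).natDegree ≤ k := by
      refine (natDegree_sub_le _ _).trans (max_le hk.le ?_)
      exact (natDegree_C_mul_le _ _).trans (natDegree_X_pow_le k)
    have heq : (H - C (1 / 2 : ℝ) * X ^ k).natDegree = k :=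
      natDegree_eq_of_le_of_coeff_ne_zero hle hpos.ne'
    rw [leadingCoeff, heq]
    exact hpos
  obtain ⟨x₃, hx₃⟩ := eventually_pos _ hlow
  obtain ⟨M₀, hM₀, hM₀'⟩ := abs_eval_le H k hk.le
  obtain ⟨M₁, hM₁, hM₁'⟩ := abs_eval_le (derivative H) (k - 1) hd1.le
  obtain ⟨n₀, hn₀⟩ := exists_nat_ge (max 1 (max x₁ (max x₂ x₃)))
  have e1 : (1 : ℝ) ≤ n₀ := (le_max_left _ _).trans hn₀
  have ex₁ : x₁ ≤ n₀ := ((le_max_left _ _).trans (le_max_right _ _)).trans hn₀
  have ex₂ : x₂ ≤ n₀ :=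
    (((le_max_left _ _).trans (le_max_right _ _)).trans (le_max_right _ _)).trans hn₀
  have ex₃ : x₃ ≤ n₀ :=
    (((le_max_right _ _).trans (le_max_right _ _)).trans (le_max_right _ _)).trans hn₀
  refine ⟨n₀, M₀ + M₁ + H.leadingCoeff, by exact_mod_cast e1, by linarith, by linarith,
    fun x hx => ?_, fun x hx => ?_, fun x d hx hd => ⟨?_, ?_, ?_⟩⟩
  · have := hx₃ x (ex₃.trans hx)
    simp only [eval_sub, eval_mul, eval_C, eval_pow, eval_X] at this
    linarith
  · have h1 := (le_abs_self _).trans (hM₀' x hx)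
    have : 0 ≤ x ^ k := pow_nonneg (by linarith) k
    nlinarith
  · obtain ⟨ξ, h1, -, h3⟩ := exists_mvt H x d hd
    have := hx₁ ξ (by linarith)
    have := mul_pos hd this
    linarith
  · obtain ⟨ξ, h1, h2', h3⟩ := exists_mvt H x d hd
    obtain ⟨ζ, h4, -, h6⟩ := exists_mvt H (x + d) d hd
    obtain ⟨θ, h7, -, h9⟩ := exists_mvt (derivative H) ξ (ζ - ξ) (by linarith)
    have h10 := hx₂ θ (by linarith)
    have h11 : ξ + (ζ - ξ) = ζ := by ring
    rw [h11] at h9
    have h12 : 0 < (ζ - ξ) * (derivative (derivative H)).eval θ := mul_pos (by linarith) h10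
    have h13 : (derivative H).eval ξ ≤ (derivative H).eval ζ := by linarith
    rw [h3, h6]
    exact mul_le_mul_of_nonneg_left h13 hd.le
  · obtain ⟨ξ, h1, h2', h3⟩ := exists_mvt H x d hd
    have hξ : 1 ≤ ξ := by linarith
    have h4 := (le_abs_self _).trans (hM₁' ξ hξ)
    have h5 : ξ ^ (k - 1) ≤ (x + d) ^ (k - 1) := pow_le_pow_left₀ (by linarith) h2'.le _
    have h6 : 0 ≤ ξ ^ (k - 1) := pow_nonneg (by linarith) _
    have h7 : M₁ * ξ ^ (k - 1) ≤ (M₀ + M₁ + H.leadingCoeff) * (x + d) ^ (k - 1) :=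
      mul_le_mul (by linarith) h5 h6 (by linarith)
    rw [h3]
    calc d * (derivative H).eval ξ ≤ d * ((M₀ + M₁ + H.leadingCoeff) * (x + d) ^ (k - 1)) :=
          mul_le_mul_of_nonneg_left (h4.trans h7) hd.le
      _ = _ := by ring

end Crest.Agent.N41.Arch
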