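import Crest.Agent.N41.Defs
import Crest.Agent.N41.Arch.Real

/-!
# Row 41, module C4: the range of the variable (`ArchStmt`)
-/

set_option autoImplicit false

namespace Crest.Agent.N41.Arch

open Polynomial Filter

/-- the purely real core: `u m = H (r + d m)` -/
lemma core (H : ℝ[X]) (k n₀ : ℕ) (M : ℝ) (h2 : 2 ≤ k) (hn₀ : 1 ≤ n₀) (hM : 1 ≤ M)
    (hlow : ∀ x : ℝ, (n₀ : ℝ) ≤ x → x ^ k / 2 ≤ H.eval x)
    (hup : ∀ x : ℝ, 1 ≤ x → H.eval x ≤ M * x ^ k)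
    (hinc : ∀ x d : ℝ, (n₀ : ℝ) ≤ x → 0 < d →
      H.eval (x + d) - H.eval x ≤ M * d * (x + d) ^ (k - 1))
    (ℓ Y : ℝ) (r d : ℕ) (hrd : r < d) (hY : 12 * M * 2 ^ k ≤ Y)
    (hℓ1 : 3 * M * (n₀ + 1) ^ k * (d : ℝ) ^ k ≤ ℓ) (hℓ2 : M * 2 ^ k * (d : ℝ) ^ k * Y ^ k ≤ ℓ) :
    ∃ X₂ : ℕ, n₀ < X₂ ∧ Y ≤ X₂ ∧ 0 ≤ H.eval ((r : ℝ) + d * n₀) ∧
      H.eval ((r : ℝ) + d * n₀) ≤ ℓ / 3 ∧ ℓ < H.eval ((r : ℝ) + d * X₂) ∧
      H.eval ((r : ℝ) + d * X₂) ≤ 4 * ℓ / 3 ∧ ℓ ≤ M * 2 ^ k * (d : ℝ) ^ k * (X₂ : ℝ) ^ k ∧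
      (X₂ : ℝ) ^ 2 ≤ 8 * ℓ ∧
      (X₂ : ℝ) * (H.eval ((r : ℝ) + d * X₂ + d) - H.eval ((r : ℝ) + d * X₂)) ≤
        2 * M * 3 ^ k * ℓ := by
  have hd1 : (1 : ℝ) ≤ d := by exact_mod_cast (by omega : 1 ≤ d)
  have hd0 : (0 : ℝ) < d := by linarith
  have hr0 : (0 : ℝ) ≤ r := Nat.cast_nonneg r
  have hrd' : (r : ℝ) ≤ d := by exact_mod_cast hrd.le
  have hn1 : (1 : ℝ) ≤ n₀ := by exact_mod_cast hn₀
  have hM0 : 0 < M := by linarith
  have hge : ∀ m : ℕ, n₀ ≤ m → (m : ℝ) ≤ (r : ℝ) + d * m ∧ (n₀ : ℝ) ≤ (r : ℝ) + d * m := by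
    intro m hm
    have h1 : (n₀ : ℝ) ≤ m := by exact_mod_cast hm
    have h2 : (m : ℝ) ≤ d * m := by nlinarith
    constructor <;> linarith
  have hℓ0 : 0 < ℓ := lt_of_lt_of_le (by positivity) hℓ1
  -- value at `n₀`
  have h0 : 0 ≤ H.eval ((r : ℝ) + d * n₀) := by
    refine le_trans ?_ (hlow _ (hge n₀ le_rfl).2)
    positivity
  have h1 : H.eval ((r : ℝ) + d * n₀) ≤ ℓ / 3 := by
    have ha : (r : ℝ) + d * n₀ ≤ (n₀ + 1) * d := by nlinarith
    have hb := hup _ (hn1.trans (hge n₀ le_rfl).2)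
    have hc : ((r : ℝ) + d * n₀) ^ k ≤ ((n₀ + 1) * d) ^ k :=
      pow_le_pow_left₀ (by positivity) ha k
    rw [mul_pow] at hc
    have := mul_le_mul_of_nonneg_left hc hM0.le
    linarith
  -- existence of a large value
  have hex : ∃ m : ℕ, n₀ ≤ m ∧ ℓ < H.eval ((r : ℝ) + d * m) := by
    obtain ⟨m, hm⟩ := exists_nat_gt (2 * ℓ + n₀)
    have hm' : n₀ ≤ m := by
      have : (n₀ : ℝ) ≤ m := by linarith
      exact_mod_cast this
    refine ⟨m, hm', lt_of_lt_of_le ?_ (hlow _ (hge m hm').2)⟩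
    have ha : (1 : ℝ) ≤ (r : ℝ) + d * m := hn1.trans (hge m hm').2
    have hb : (r : ℝ) + d * m ≤ ((r : ℝ) + d * m) ^ k := le_self_pow₀ ha (by omega)
    have := (hge m hm').1
    linarith
  classical
  set X₂ := Nat.find hex with hX₂
  have hspec : n₀ ≤ X₂ ∧ ℓ < H.eval ((r : ℝ) + d * X₂) := Nat.find_spec hex
  have hlt : n₀ < X₂ := by
    rcases hspec.1.eq_or_lt with h | h
    · have := hspec.2
      rw [← h] at this
      linarith
    · exact h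
  obtain ⟨m, hm⟩ : ∃ m, X₂ = m + 1 := ⟨X₂ - 1, by omega⟩
  have hmn : n₀ ≤ m := by omega
  have hprev : H.eval ((r : ℝ) + d * m) ≤ ℓ := by
    by_contra hc
    exact Nat.find_min hex (by omega : m < Nat.find hex) ⟨hmn, not_le.mp hc⟩
  set y : ℝ := (r : ℝ) + d * m with hy
  have hXm : (X₂ : ℝ) = m + 1 := by rw [hm]; push_cast; ring
  have hyd : (r : ℝ) + d * X₂ = y + d := by rw [hXm, hy]; ring
  have hm1 : (1 : ℝ) ≤ m := by exact_mod_cast (by omega : 1 ≤ m)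
  have hyn : (n₀ : ℝ) ≤ y := (hge m hmn).2
  have hy1 : 1 ≤ y := hn1.trans hyn
  have hmy : (m : ℝ) ≤ y := (hge m hmn).1
  have hdm : (d : ℝ) * m ≤ y := by rw [hy]; linarith
  have hdy : (d : ℝ) ≤ y := by nlinarith
  have hyk : y ^ k ≤ 2 * ℓ := by
    have := hlow y hyn
    linarith
  have hX0 : (0 : ℝ) < X₂ := by linarith
  -- lower bound for `X₂`
  have hbig : ℓ ≤ M * 2 ^ k * (d : ℝ) ^ k * (X₂ : ℝ) ^ k := by
    have ha : (r : ℝ) + d * X₂ ≤ 2 * d * X₂ := by nlinarith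
    have hb := hup ((r : ℝ) + d * X₂) (by rw [hyd]; linarith)
    have hc : ((r : ℝ) + d * X₂) ^ k ≤ (2 * d * X₂) ^ k :=
      pow_le_pow_left₀ (by positivity) ha k
    rw [mul_pow, mul_pow] at hc
    have := mul_le_mul_of_nonneg_left hc hM0.le
    have := hspec.2
    linarith
  have hYX : Y ≤ X₂ := by
    by_contra hc
    have hc' : (X₂ : ℝ) < Y := not_le.mp hc
    have h3 : (X₂ : ℝ) ^ k < Y ^ k := pow_lt_pow_left₀ hc' hX0.le (by omega)
    have h4 : 0 < M * 2 ^ k * (d : ℝ) ^ k := by positivity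
    have h5 := mul_lt_mul_of_pos_left h3 h4
    have hb := hup ((r : ℝ) + d * X₂) (by rw [hyd]; linarith)
    have ha : (r : ℝ) + d * X₂ ≤ 2 * d * X₂ := by nlinarith
    have hc : ((r : ℝ) + d * X₂) ^ k ≤ (2 * d * X₂) ^ k :=
      pow_le_pow_left₀ (by positivity) ha k
    rw [mul_pow, mul_pow] at hc
    have := mul_le_mul_of_nonneg_left hc hM0.le
    have := hspec.2
    linarith
  have hk1 : k - 1 + 1 = k := by omega
  refine ⟨X₂, hlt, hYX, h0, h1, hspec.2, ?_, hbig, ?_, ?_⟩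
  · -- the last step is at most `ℓ/3`
    rw [hyd]
    have ha := hinc y d hyn hd0
    have hb : (y + d) ^ (k - 1) ≤ (2 * y) ^ (k - 1) :=
      pow_le_pow_left₀ (by linarith) (by linarith) _
    rw [mul_pow] at hb
    have hc : (2 : ℝ) ^ (k - 1) ≤ 2 ^ k := pow_le_pow_right₀ (by norm_num) (by omega)
    have hyk' : y ^ (k - 1) * y ≤ 2 * ℓ := by rw [← pow_succ, hk1]; exact hyk
    have hp : 0 < y ^ (k - 1) := by positivity
    -- `6 M 2^k d ≤ y`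
    have he : 6 * M * 2 ^ k * d ≤ y := by
      have h3 : 12 * M * 2 ^ k ≤ 2 * m := by linarith
      nlinarith
    have hf : M * d * (y + d) ^ (k - 1) ≤ M * d * (2 ^ k * y ^ (k - 1)) := by
      refine mul_le_mul_of_nonneg_left (hb.trans ?_) (by positivity)
      exact mul_le_mul_of_nonneg_right hc hp.le
    have hg : 6 * M * 2 ^ k * d * y ^ (k - 1) ≤ y * y ^ (k - 1) :=
      mul_le_mul_of_nonneg_right he hp.le
    nlinarith
  · have ha : y ^ 2 ≤ y ^ k := pow_le_pow_right₀ hy1 h2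
    have hb : (X₂ : ℝ) ≤ 2 * y := by linarith
    nlinarith
  · rw [hyd]
    have ha := hinc (y + d) d (by linarith) hd0
    have hb : (X₂ : ℝ) * d ≤ y + d + d := by rw [hXm]; nlinarith
    have hp : 0 < (y + d + d) ^ (k - 1) := by positivity
    have hc : (y + d + d) ^ k ≤ (3 * y) ^ k := pow_le_pow_left₀ (by linarith) (by linarith) _
    rw [mul_pow] at hc
    have hd' : (y + d + d) ^ (k - 1) * (y + d + d) = (y + d + d) ^ k := by rw [← pow_succ, hk1]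
    calc (X₂ : ℝ) * (H.eval (y + d + d) - H.eval (y + d))
        ≤ X₂ * (M * d * (y + d + d) ^ (k - 1)) := mul_le_mul_of_nonneg_left ha hX0.le
      _ = M * ((y + d + d) ^ (k - 1) * (X₂ * d)) := by ring
      _ ≤ M * ((y + d + d) ^ (k - 1) * (y + d + d)) :=
          mul_le_mul_of_nonneg_left (mul_le_mul_of_nonneg_left hb hp.le) hM0.le
      _ ≤ M * (3 ^ k * (2 * ℓ)) := by
          rw [hd']
          refine mul_le_mul_of_nonneg_left (hc.trans ?_) hM0.le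
          exact mul_le_mul_of_nonneg_left hyk (by positivity)
      _ = _ := by ring

/-- the powers of `N` that occur -/
lemma powers (k : ℕ) (h2 : 2 ≤ k) (A : ℝ) (hA : 1 ≤ A) :
    ∃ N₀ : ℝ, ∀ (N ℓ d : ℝ), N₀ ≤ N → 0 ≤ d → d ≤ N ^ (1 / (4 * k) : ℝ) →
      N ^ (1 - 1 / (4 * k) : ℝ) ≤ ℓ →
      A ≤ N ^ (1 / (2 * k) : ℝ) ∧ A * d ^ k * (N ^ (1 / (2 * k) : ℝ)) ^ k ≤ ℓ ∧
        ∀ lam : ℝ, 0 ≤ lam → lam ≤ N ^ (1 / (4 * k) : ℝ) → A * lam ^ 2 ≤ ℓ := by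
  have hk : (2 : ℝ) ≤ k := by exact_mod_cast h2
  have hk0 : (0 : ℝ) < k := by linarith
  refine ⟨A ^ (8 * k), fun N ℓ d hN hd0 hd hℓ => ?_⟩
  have hA0 : 0 < A := by linarith
  have hN1 : 1 ≤ N := (one_le_pow₀ hA).trans hN
  have hN0 : 0 < N := by linarith
  have hAN : A ≤ N ^ (1 / (8 * k) : ℝ) := by
    have h1 : (A ^ (8 * k)) ^ (1 / (8 * k) : ℝ) ≤ N ^ (1 / (8 * k) : ℝ) :=
      Real.rpow_le_rpow (by positivity) hN (by positivity)
    have h2 : (A ^ (8 * k)) ^ (1 / (8 * k) : ℝ) = A := by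
      rw [← Real.rpow_natCast, ← Real.rpow_mul hA0.le]
      have : ((8 * k : ℕ) : ℝ) * (1 / (8 * k)) = 1 := by push_cast; field_simp
      rw [this, Real.rpow_one]
    linarith
  have hinv : 1 / (k : ℝ) ≤ 1 / 2 := one_div_le_one_div_of_le (by norm_num) hk
  have hinv0 : 0 < 1 / (k : ℝ) := by positivity
  have e8 : (1 / (8 * k) : ℝ) = 1 / 8 * (1 / k) := by field_simp
  have e4 : (1 / (4 * k) : ℝ) = 1 / 4 * (1 / k) := by field_simp
  have e2 : (1 / (2 * k) : ℝ) = 1 / 2 * (1 / k) := by field_simp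
  refine ⟨hAN.trans (Real.rpow_le_rpow_of_exponent_le hN1 (by rw [e8, e2]; linarith)), ?_, ?_⟩
  · have h1 : d ^ k ≤ N ^ (1 / 4 : ℝ) := by
      refine (pow_le_pow_left₀ hd0 hd k).trans (le_of_eq ?_)
      rw [← Real.rpow_natCast, ← Real.rpow_mul hN0.le]
      congr 1
      field_simp
    have h3 : (N ^ (1 / (2 * k) : ℝ)) ^ k = N ^ (1 / 2 : ℝ) := by
      rw [← Real.rpow_natCast, ← Real.rpow_mul hN0.le]
      congr 1
      field_simp
    rw [h3]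
    calc A * d ^ k * N ^ (1 / 2 : ℝ)
        ≤ N ^ (1 / (8 * k) : ℝ) * N ^ (1 / 4 : ℝ) * N ^ (1 / 2 : ℝ) := by gcongr
      _ = N ^ (1 / (8 * k) + 1 / 4 + 1 / 2 : ℝ) := by
          rw [Real.rpow_add hN0, Real.rpow_add hN0]
      _ ≤ N ^ (1 - 1 / (4 * k) : ℝ) :=
          Real.rpow_le_rpow_of_exponent_le hN1 (by rw [e8, e4]; linarith)
      _ ≤ ℓ := hℓ
  · intro lam hl0 hl
    calc A * lam ^ 2 ≤ N ^ (1 / (8 * k) : ℝ) * (N ^ (1 / (4 * k) : ℝ)) ^ 2 := by gcongr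
      _ = N ^ (1 / (8 * k) + 1 / (4 * k) + 1 / (4 * k) : ℝ) := by
          rw [Real.rpow_add hN0, Real.rpow_add hN0]; ring
      _ ≤ N ^ (1 - 1 / (4 * k) : ℝ) :=
          Real.rpow_le_rpow_of_exponent_le hN1 (by rw [e8, e4]; linarith)
      _ ≤ ℓ := hℓ

/-- **Module C4.** -/
theorem arch : ArchStmt := by
  intro h h2 hl
  set k := h.natDegree with hk
  set H : ℝ[X] := h.map (Int.castRingHom ℝ) with hH
  have hinj : Function.Injective (Int.castRingHom ℝ) := Int.cast_injective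
  have hHk : H.natDegree = k := natDegree_map_eq_of_injective hinj h
  have hHl : H.leadingCoeff = (h.leadingCoeff : ℝ) := by
    rw [hH, leadingCoeff_map_of_injective hinj]; rfl
  have hl1 : (1 : ℝ) ≤ H.leadingCoeff := by rw [hHl]; exact_mod_cast hl
  have hev : ∀ z : ℤ, H.eval (z : ℝ) = ((h.eval z : ℤ) : ℝ) := by
    intro z
    simp [hH]
  obtain ⟨n₀, M, hn₀, hM, hlM, hlow, hup, hinc⟩ := package H k hHk h2 hl1
  have hM0 : 0 < M := by linarith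
  set A : ℝ := 72 * M * 2 ^ k * (n₀ + 1) ^ k with hA
  have hp2 : (1 : ℝ) ≤ 2 ^ k := one_le_pow₀ (by norm_num)
  have hp3 : (2 : ℝ) ^ k ≤ 3 ^ k := pow_le_pow_left₀ (by norm_num) (by norm_num) k
  have hpn : (1 : ℝ) ≤ (n₀ + 1) ^ k := one_le_pow₀ (by linarith [Nat.cast_nonneg (α := ℝ) n₀])
  have hM2 : 1 ≤ M * 2 ^ k := by nlinarith
  have hA1 : M * 2 ^ k * 72 ≤ A := by rw [hA]; nlinarith
  have hA2 : 3 * M * (n₀ + 1) ^ k ≤ A := by
    rw [hA]
    have : 0 < M * (n₀ + 1) ^ k := by positivity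
    nlinarith
  obtain ⟨N₀, hN₀⟩ := powers k h2 A (by linarith)
  refine ⟨6 * M * 3 ^ k, N₀, by nlinarith, ?_⟩
  intro N ℓ r d lam P hN hrd hlam hd hlamN hℓ _ hP
  obtain ⟨hY, hℓ2, hℓ3⟩ := hN₀ N ℓ d hN (Nat.cast_nonneg d) hd hℓ
  set Y : ℝ := N ^ (1 / (2 * k) : ℝ) with hYdef
  have hd1 : (1 : ℝ) ≤ d := by exact_mod_cast (by omega : 1 ≤ d)
  have hdk : (1 : ℝ) ≤ (d : ℝ) ^ k := one_le_pow₀ hd1
  have hY1 : 1 ≤ Y := by linarith
  have hYk : 1 ≤ Y ^ k := one_le_pow₀ hY1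
  have hlam1 : (1 : ℝ) ≤ lam := by exact_mod_cast hlam
  have hlam0 : (0 : ℝ) < lam := by linarith
  have hℓ1' : 3 * M * (n₀ + 1) ^ k * (d : ℝ) ^ k ≤ ℓ := by
    refine le_trans ?_ hℓ2
    calc 3 * M * (n₀ + 1) ^ k * (d : ℝ) ^ k ≤ A * (d : ℝ) ^ k := by gcongr
      _ ≤ A * (d : ℝ) ^ k * Y ^ k := le_mul_of_one_le_right (by positivity) hYk
  have hℓ2' : M * 2 ^ k * (d : ℝ) ^ k * Y ^ k ≤ ℓ := by
    refine le_trans ?_ hℓ2
    gcongr
    linarith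
  obtain ⟨X₂, hX, hYX, h0, h1, h3, h4, h5, h6, h7⟩ := core H k n₀ M h2 hn₀ hM hlow hup
    (fun x d hx hd => (hinc x d hx hd).2.2) ℓ Y r d hrd (by linarith) hℓ1' hℓ2'
  have hℓ0 : 0 < ℓ := lt_of_lt_of_le (by positivity) hℓ1'
  -- values of `P`
  have hPv : ∀ z : ℤ, (lam : ℝ) * ((P.eval z : ℤ) : ℝ) =
      H.eval ((r : ℝ) + d * z) - ((h.eval (r : ℤ) : ℤ) : ℝ) := by
    intro z
    have e := congrArg (eval z) hP
    simp only [eval_mul, eval_C, eval_sub, eval_comp, eval_add, eval_X] at e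
    have e' := hev ((r : ℤ) + d * z)
    push_cast at e'
    rw [e']
    exact_mod_cast e
  have hPn : ∀ m : ℕ, (lam : ℝ) * ((P.eval (m : ℤ) : ℤ) : ℝ) =
      H.eval ((r : ℝ) + d * m) - ((h.eval (r : ℤ) : ℤ) : ℝ) := fun m => by
    simpa using hPv m
  have hdP : ∀ m : ℕ, (lam : ℝ) * (dP P m : ℝ) =
      H.eval ((r : ℝ) + d * m + d) - H.eval ((r : ℝ) + d * m) := by
    intro m
    have e1 := hPv ((m : ℤ) + 1)
    have e2 := hPn m
    have e3 : (r : ℝ) + d * (((m : ℤ) + 1 : ℤ) : ℝ) = (r : ℝ) + d * m + d := by push_cast; ring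
    rw [e3] at e1
    simp only [dP, Int.cast_sub]
    linarith
  refine ⟨n₀, X₂, ⟨hn₀, hX.le, fun m hm _ => ?_, ?_, ?_, ?_, ?_, ?_⟩, hYX, fun t ht1 ht2 => ?_⟩
  · have hx : (n₀ : ℝ) ≤ (r : ℝ) + d * m := by
      have h1 : (n₀ : ℝ) ≤ m := by exact_mod_cast hm
      have h2 : (0 : ℝ) ≤ r := Nat.cast_nonneg r
      have h3 : (0 : ℝ) ≤ m := Nat.cast_nonneg m
      nlinarith
    obtain ⟨i1, i2, -⟩ := hinc _ d hx (by linarith)
    have e1 := hdP m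
    have e2 := hdP (m + 1)
    have e3 : (r : ℝ) + d * ((m + 1 : ℕ) : ℝ) = (r : ℝ) + d * m + d := by push_cast; ring
    rw [e3] at e2
    constructor
    · have : (0 : ℝ) < (dP P m : ℝ) := by
        by_contra hc
        have := mul_nonpos_of_nonneg_of_nonpos hlam0.le (not_lt.mp hc)
        linarith
      exact_mod_cast this
    · have : (dP P m : ℝ) ≤ (dP P (m + 1) : ℝ) := by
        refine le_of_mul_le_mul_left ?_ hlam0
        linarith
      exact_mod_cast this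
  · refine le_of_mul_le_mul_left ?_ hlam0
    have e1 : (lam : ℝ) * (6 * M * 3 ^ k * (d : ℝ) ^ k * (ℓ / (3 * lam))) =
        2 * M * 3 ^ k * ℓ * (d : ℝ) ^ k := by field_simp; ring
    have e2 : (lam : ℝ) * ((X₂ : ℝ) * (dP P X₂ : ℝ)) = X₂ * (lam * (dP P X₂ : ℝ)) := by ring
    rw [e1, e2, hdP]
    exact h7.trans (le_mul_of_one_le_right (by positivity) hdk)
  · refine le_of_mul_le_mul_left ?_ hlam0
    have e1 : (lam : ℝ) * (4 * (ℓ / (3 * lam))) = 4 * ℓ / 3 := by field_simp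
    have e2 := hPn X₂
    have e3 := hPn n₀
    rw [e1, Int.cast_sub]
    linarith
  · have e1 : ℓ / (3 * lam) ≤ ℓ := div_le_self hℓ0.le (by linarith)
    refine e1.trans (h5.trans ?_)
    have : M * 2 ^ k ≤ 6 * M * 3 ^ k := by nlinarith
    gcongr
  · rw [le_div_iff₀ (by linarith)]
    have e1 := hℓ3 lam hlam0.le hlamN
    have e2 : 72 * (lam : ℝ) ^ 2 ≤ ℓ := by
      refine le_trans ?_ e1
      have : (72 : ℝ) ≤ A := by linarith
      gcongr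
    have e3 : ((X₂ : ℝ) * (3 * lam)) ^ 2 ≤ ℓ ^ 2 := by
      have : (0 : ℝ) ≤ (lam : ℝ) ^ 2 := by positivity
      nlinarith
    exact (pow_le_pow_iff_left₀ (by positivity) hℓ0.le (by norm_num)).mp e3
  · -- the leading coefficient
    have hd0 : (d : ℤ) ≠ 0 := by exact_mod_cast (by omega : d ≠ 0)
    have hq1 : (C (r : ℤ) + C (d : ℤ) * X).natDegree = 1 := by
      rw [add_comm, natDegree_add_C, natDegree_C_mul_X _ hd0]
    have hq2 : (C (r : ℤ) + C (d : ℤ) * X).leadingCoeff = (d : ℤ) := by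
      rw [leadingCoeff, hq1]; simp
    have hc1 : (h.comp (C (r : ℤ) + C (d : ℤ) * X)).natDegree = k := by
      rw [natDegree_comp, hq1, mul_one]
    have hc2 : (h.comp (C (r : ℤ) + C (d : ℤ) * X)).leadingCoeff =
        h.leadingCoeff * (d : ℤ) ^ k := by
      rw [leadingCoeff_comp (by rw [hq1]; norm_num), hq2]
    have hc3 : (h.comp (C (r : ℤ) + C (d : ℤ) * X) - C (h.eval (r : ℤ))).leadingCoeff =
        h.leadingCoeff * (d : ℤ) ^ k := by
      rw [leadingCoeff, natDegree_sub_C, coeff_sub, coeff_C, if_neg (by omega), sub_zero, ← hc2,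
        leadingCoeff]
    have e := congrArg leadingCoeff hP
    rw [leadingCoeff_mul, leadingCoeff_C, hc3] at e
    have e' : (lam : ℝ) * (P.leadingCoeff : ℝ) = H.leadingCoeff * (d : ℝ) ^ k := by
      rw [hHl]; exact_mod_cast e
    have hpos : 0 ≤ (P.leadingCoeff : ℝ) := by
      by_contra hc
      have := mul_neg_of_pos_of_neg hlam0 (not_le.mp hc)
      have : 0 < H.leadingCoeff * (d : ℝ) ^ k := by positivity
      linarith
    have e1 : (P.leadingCoeff : ℝ) ≤ lam * (P.leadingCoeff : ℝ) := le_mul_of_one_le_left hpos hlam1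
    have e2 : H.leadingCoeff ≤ 6 * M * 3 ^ k := by nlinarith
    calc (P.leadingCoeff : ℝ) ≤ H.leadingCoeff * (d : ℝ) ^ k := by linarith
      _ ≤ _ := by gcongr
  · have e2 := hPn X₂
    have e3 := hPn n₀
    push_cast at ht1 ht2
    constructor
    · have : ((P.eval (n₀ : ℤ) : ℤ) : ℝ) ≤ (t : ℝ) := by
        refine le_of_mul_le_mul_left ?_ hlam0
        linarith
      exact_mod_cast this
    · have : (t : ℝ) < ((P.eval (X₂ : ℤ) : ℤ) : ℝ) := by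
        refine lt_of_mul_lt_mul_left ?_ hlam0.le
        linarith
      exact_mod_cast this

end Crest.Agent.N41.Arch
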